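import Vale.Agent.P207Z.Geo.Idem.Loc

/-!
# P207 GEO, the central idempotent: the equations, their kernel, uniform bounds
-/

set_option linter.all false

open Set Filter Topology Metric
open scoped ContDiff

noncomputable section

namespace Vale.Agent.P207Z.IdG

variable {V F : Type} [NormedAddCommGroup V] [NormedSpace ℝ V] [NormedAddCommGroup F]
  [NormedSpace ℝ F] {e : F →L[ℝ] F} {O : Set (F →L[ℝ] F)} {Yf σf : (F →L[ℝ] F) → F →L[ℝ] F}

section Ker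

variable {P Q : F →L[ℝ] F} {H K : Submodule ℝ F}

theorem rr_apply (P Q e : F →L[ℝ] F) (v : F) : rr P Q (e + e - 1) v =
    (v - Q v, (2 : ℝ) • ((Q v - e (Q v)) - P (Q v - e (Q v)))) := by
  refine Prod.ext rfl ?_
  simp only [rr, ContinuousLinearMap.prod_apply, ContinuousLinearMap.mul_apply, sub_apply,
    add_apply, one_apply_eq_self, map_sub, map_add, two_smul]
  abel

theorem fix_of_mem (hP : P * P = P) (hH : P.range = H) {v : F} (hv : v ∈ H) : P v = v := by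
  rw [← hH] at hv
  obtain ⟨w, rfl⟩ := hv
  exact DFunLike.congr_fun hP w

theorem rr_near (hH : P.range = H) (hK : Q.range = K) (v : F) :
    e (Q v) + P (Q v - e (Q v)) ∈ H ⊔ K.map (e : F →ₗ[ℝ] F) :=
  Submodule.add_mem _ (Submodule.mem_sup_right ⟨Q v, hK ▸ ⟨v, rfl⟩, rfl⟩)
    (Submodule.mem_sup_left (hH ▸ ⟨_, rfl⟩))

theorem rr_dist (P Q e : F →L[ℝ] F) (v : F) :
    ‖v - (e (Q v) + P (Q v - e (Q v)))‖ ≤ 2 * ‖rr P Q (e + e - 1) v‖ := by
  have a1 := norm_fst_le (rr P Q (e + e - 1) v)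
  have a2 := norm_snd_le (rr P Q (e + e - 1) v)
  rw [rr_apply] at a1 a2 ⊢
  dsimp only at a1 a2
  rw [norm_smul, Real.norm_two] at a2
  have a3 : v - (e (Q v) + P (Q v - e (Q v))) =
      (v - Q v) + ((Q v - e (Q v)) - P (Q v - e (Q v))) := by abel
  have a4 := norm_add_le (v - Q v) ((Q v - e (Q v)) - P (Q v - e (Q v)))
  have a5 := norm_nonneg ((Q v - e (Q v)) - P (Q v - e (Q v)))
  rw [a3]
  linarith

theorem rr_gap (hH : P.range = H) (hK : Q.range = K) (v : F) :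
    infDist v (H ⊔ K.map (e : F →ₗ[ℝ] F) : Submodule ℝ F) ≤ 2 * ‖rr P Q (e + e - 1) v‖ :=
  (infDist_le_dist_of_mem (rr_near hH hK v)).trans (by rw [dist_eq_norm]; exact rr_dist P Q e v)

theorem rr_ker (he : e * e = e) (hP : P * P = P) (hQ : Q * Q = Q) (hH : P.range = H)
    (hK : Q.range = K) (hHK : H ≤ K) (h1 : ∀ v ∈ H, e v ∈ H) (h2 : ∀ v ∈ K, e v ∈ K) :
    (rr P Q (e + e - 1)).ker = H ⊔ K.map (e : F →ₗ[ℝ] F) := by
  refine le_antisymm (fun v hv => ?_) (sup_le (fun v hv => ?_) ?_)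
  · have := rr_dist P Q e v
    rw [show rr P Q (e + e - 1) v = 0 from hv, norm_zero, mul_zero, norm_le_zero_iff,
      sub_eq_zero] at this
    rw [this]
    exact rr_near hH hK v
  · show rr P Q (e + e - 1) v = 0
    rw [rr_apply, fix_of_mem hQ hK (hHK hv), fix_of_mem hP hH (H.sub_mem hv (h1 v hv))]
    simp
  · rintro _ ⟨v, hv, rfl⟩
    show rr P Q (e + e - 1) (e v) = 0
    rw [rr_apply, fix_of_mem hQ hK (h2 v hv), show e (e v) = e v from DFunLike.congr_fun he v]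
    simp

end Ker

theorem exists_eps (hs : Sgn e O Yf σf) (he : e * e = e) {δ : ℝ} (hδ : 0 < δ) : ∃ ε > 0,
    ∀ p B : F →L[ℝ] F, ‖p - e‖ < ε → ‖B - e‖ < ε →
      B ∈ O ∧ ‖Yf B - 1‖ ≤ δ ∧ ‖(p + p - 1) * (B + B - 1) - 1‖ ≤ δ := by
  have hid : (e + e - 1) * (e + e - 1) = 1 := by
    simp only [sub_mul, mul_sub, add_mul, mul_add, he, mul_one, one_mul]
    abel
  have cY : ContinuousAt Yf e := hs.sY.continuousOn.continuousAt (hs.op.mem_nhds hs.mem)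
  have c1 : ContinuousAt (fun z : (F →L[ℝ] F) × (F →L[ℝ] F) => ‖Yf z.2 - 1‖) (e, e) :=
    ((ContinuousAt.comp (f := Prod.snd) cY continuousAt_snd).sub continuousAt_const).norm
  have c2 : ContinuousAt (fun z : (F →L[ℝ] F) × (F →L[ℝ] F) =>
      ‖(z.1 + z.1 - 1) * (z.2 + z.2 - 1) - 1‖) (e, e) := by fun_prop
  have h1 := (continuousAt_snd (p := (e, e))).eventually (hs.op.mem_nhds hs.mem)
  have h2 := c1.eventually (gt_mem_nhds (a := δ) (by simpa only [hs.Y0, sub_self, norm_zero]))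
  have h3 := c2.eventually (gt_mem_nhds (a := δ) (by simpa only [hid, sub_self, norm_zero]))
  obtain ⟨ε, hε, h⟩ := Metric.eventually_nhds_iff.1 (h1.and (h2.and h3))
  refine ⟨ε, hε, fun p B hp hB => ?_⟩
  have := h (y := (p, B)) (by rw [Prod.dist_eq, dist_eq_norm, dist_eq_norm]; exact max_lt hp hB)
  exact ⟨this.1, this.2.1.le, this.2.2.le⟩

/-- the equations, as a function of the three projections -/
def Phi (e : F →L[ℝ] F) (σf : (F →L[ℝ] F) → F →L[ℝ] F)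
    (z : (F →L[ℝ] F) × (F →L[ℝ] F) × ((F →L[ℝ] F) →L[ℝ] F →L[ℝ] F)) : F →L[ℝ] F × F :=
  rr z.1 z.2.1 (σf (z.2.2 e))

/-- the domain of `Phi` -/
def Om (e : F →L[ℝ] F) (O : Set (F →L[ℝ] F)) (ε : ℝ) :
    Set ((F →L[ℝ] F) × (F →L[ℝ] F) × ((F →L[ℝ] F) →L[ℝ] F →L[ℝ] F)) :=
  {z | z.2.2 e ∈ O ∩ ball e ε}

theorem isOpen_Om (hs : Sgn e O Yf σf) (ε : ℝ) : IsOpen (Om e O ε) :=
  (hs.op.inter isOpen_ball).preimage (by fun_prop)

theorem contDiffOn_Phi (hs : Sgn e O Yf σf) (ε : ℝ) : ContDiffOn ℝ ∞ (Phi e σf) (Om e O ε) := by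
  have c1 : ContDiffOn ℝ ∞ (fun z : (F →L[ℝ] F) × (F →L[ℝ] F) × ((F →L[ℝ] F) →L[ℝ] F →L[ℝ] F) =>
      σf (z.2.2 e)) (Om e O ε) :=
    hs.sσ.comp (contDiff_snd.snd.clm_apply contDiff_const).contDiffOn fun z hz => hz.1
  exact (ContinuousLinearMap.prodₗᵢ ℝ).contDiff.comp_contDiffOn
    ((contDiff_const.sub contDiff_snd.fst).contDiffOn.prodMk
      (((contDiff_const.sub contDiff_fst).contDiffOn.mul (contDiffOn_const.sub c1)).mul
        contDiff_snd.fst.contDiffOn))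

theorem ckB_Phi [FiniteDimensional ℝ F] (hs : Sgn e O Yf σf) {ε : ℝ} (hε : 0 < ε) (k n : ℕ) :
    ∃ n' ≥ n, ∀ (P Q : V → F →L[ℝ] F) (R : V → (F →L[ℝ] F) →L[ℝ] F →L[ℝ] F), CkB (k + 1) n P →
      CkB (k + 1) n Q → CkB (k + 1) n R → R 0 e = e →
      CkB (k + 1) n' (fun q => Phi e σf (P q, Q q, R q)) ∧
        ∀ q ∈ ball (0 : V) (rad n'), ‖R q e - e‖ < ε := by
  haveI : ProperSpace ((F →L[ℝ] F) × (F →L[ℝ] F) × ((F →L[ℝ] F) →L[ℝ] F →L[ℝ] F)) :=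
    FiniteDimensional.proper_real
      ((F →L[ℝ] F) × (F →L[ℝ] F) × ((F →L[ℝ] F) →L[ℝ] F →L[ℝ] F))
  have hK : IsCompact (closedBall 0 n ∩ {z : (F →L[ℝ] F) × (F →L[ℝ] F) ×
      ((F →L[ℝ] F) →L[ℝ] F →L[ℝ] F) | z.2.2 e = e}) :=
    (isCompact_closedBall _ _).inter_right (isClosed_eq (by fun_prop) continuous_const)
  obtain ⟨n', hn, h⟩ := ckB_map (V := V) (isOpen_Om hs ε) (contDiffOn_Phi hs ε) hK
    (fun z hz => by
      show z.2.2 e ∈ O ∩ ball e ε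
      rw [show z.2.2 e = e from hz.2]
      exact ⟨hs.mem, mem_ball_self hε⟩) k n
  refine ⟨n', hn, fun P Q R hP hQ hR h0 => ?_⟩
  have hf := hP.prod (hQ.prod hR)
  obtain ⟨h1, h2⟩ := h _ hf
    ⟨mem_closedBall_zero_iff.2 (hf.norm_le (mem_ball_self (rad_pos n))), h0⟩
  exact ⟨h1, fun q hq => mem_ball_iff_norm.1 (h2 hq).2⟩

end Vale.Agent.P207Z.IdG
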