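import Vale.Agent.P207Z.Geo.Defs
import Vale.Agent.P207Z.Dyn

/-!
# P207 GEO, the central idempotent: the projection on `E^s` along `E^u` is uniformly continuous
-/

set_option linter.all false

open Set Filter Topology Metric MeasureTheory
open scoped ContDiff

noncomputable section

namespace Vale.Agent.P207Z.IdG

variable {Γ X B E V : Type} [Group Γ] [Countable Γ] [MetricSpace X] [ProperSpace X]
  [MulAction Γ X] [IsIsometricSMul Γ X] [MeasurableSpace X] [BorelSpace X]
  [TopologicalSpace B] [CompactSpace B] [T2Space B] [SecondCountableTopology B] [MulAction Γ B]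
  [ContinuousConstSMul Γ B] [MeasurableSpace B] [BorelSpace B]
  [NormedAddCommGroup E] [InnerProductSpace ℝ E] [FiniteDimensional ℝ E]
  [NormedAddCommGroup V] [NormedSpace ℝ V] [FiniteDimensional ℝ V]
  {S : Sys Γ X B E V} {x y y' : X} {q : V}

theorem eS_idem (S : Sys Γ X B E V) : S.eS * S.eS = S.eS := by
  ext v
  show S.iS (S.pS (S.iS (S.pS v))) = S.iS (S.pS v)
  rw [S.pS_iS]

theorem eS_conj (h : S.pt y = S.pt x) :
    fderiv ℝ (S.τ y x) 0 * S.eS * fderiv ℝ (S.τ x y) 0 = S.eS := by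
  have h0 := Sys.zero_dom h
  have c : fderiv ℝ (S.τ y x) 0 * S.eS = S.eS * fderiv ℝ (S.τ y x) 0 := by
    ext v
    have a1 := Sys.pU_fderiv_τ (congrArg Prod.snd h) h0 (map_zero _) (S.pS v)
    have a2 := Sys.pS_fderiv_τ (congrArg Prod.fst h) h0 (map_zero _) (S.pU v)
    have a3 := S.iS_add (fderiv ℝ (S.τ y x) 0 (S.iS (S.pS v)))
    show fderiv ℝ (S.τ y x) 0 (S.iS (S.pS v)) = S.iS (S.pS (fderiv ℝ (S.τ y x) 0 v))
    conv_rhs => rw [← S.iS_add v, map_add, map_add, a2, add_zero]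
    rw [a1, map_zero, add_zero] at a3
    exact a3.symm
  have i := Sys.fderiv_τ_inv' h0
  rw [Sys.τ_zero h] at i
  rw [c, mul_assoc, i, mul_one]

theorem mem_dom' (hq : q ∈ ball (0 : V) 1) (h : S.pt y = S.c x q) :
    q ∈ S.dom x y ∧ S.τ x y q = 0 := by
  have h0 := Sys.zero_dom' hq h
  have h1 := Sys.τ_dom h0
  have h2 := Sys.τ_τ h0
  rw [Sys.τ_zero' hq h] at h1 h2
  exact ⟨h1, h2⟩

/-- the projection at the point `q` of the chart of `x`, computed with a frame `y` over `q` -/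
def prj (S : Sys Γ X B E V) (x y : X) (q : V) : V →L[ℝ] V :=
  fderiv ℝ (S.τ y x) 0 * S.eS * fderiv ℝ (S.τ x y) q

theorem prj_indep (hq : q ∈ ball (0 : V) 1) (h : S.pt y = S.c x q) (h' : S.pt y' = S.c x q) :
    prj S x y q = prj S x y' q := by
  have e := h.trans h'.symm
  have a1 := Sys.fderiv_τ_trans (Sys.zero_dom e) (Sys.zero_dom' hq h)
  have a2 := Sys.fderiv_τ_trans (mem_dom' hq h').1 (mem_dom' hq h).1
  rw [Sys.τ_zero e] at a1
  rw [(mem_dom' hq h').2] at a2
  rw [prj, prj, ← a1, ← a2]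
  conv_rhs => rw [← eS_conj e]
  simp only [mul_assoc]

theorem fderiv_smul (g : Γ) (h : q ∈ S.dom x y) :
    fderiv ℝ (S.τ (g • x) (g • y)) q = fderiv ℝ (S.τ x y) q :=
  Filter.EventuallyEq.fderiv_eq (by
    filter_upwards [Sys.dom_nhds h] with q' hq' using Sys.τ_smul g hq')

theorem cont_fderiv {Z : Type} [TopologicalSpace Z] {a b : Z → X} {c : Z → V} {z : Z}
    (ha : ContinuousAt a z) (hb : ContinuousAt b z) (hc : ContinuousAt c z)
    (h : c z ∈ S.dom (a z) (b z)) :
    ContinuousAt (fun z => fderiv ℝ (S.τ (a z) (b z)) (c z)) z :=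
  ContinuousAt.comp (f := fun z => ((a z, b z), c z))
    ((Sys.jc_τ (S := S)).fderiv.continuousOn.continuousAt (Sys.isOpen_Dm.mem_nhds h))
    ((ha.prodMk hb).prodMk hc)

theorem unif_prj (S : Sys Γ X B E V) {ε : ℝ} (hε : 0 < ε) : ∃ r > 0, ∀ x y q, ‖q‖ < r →
    S.pt y = S.c x q → ‖prj S x y q - S.eS‖ < ε := by
  obtain ⟨K, hK, hc⟩ := S.cocompact
  obtain ⟨D, hD⟩ := S.fr_near (a := 1 / 2) (by norm_num)
  have h1 : ∀ᶠ q in 𝓝 (0 : V), ∀ p ∈ K ×ˢ cthickening D K,
      S.pt p.2 = S.c p.1 q → ‖prj S p.1 p.2 q - S.eS‖ < ε := by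
    refine (hK.prod hK.cthickening).eventually_forall_of_forall_eventually fun p _ => ?_
    by_cases he : S.pt p.2 = S.pt p.1
    · have d1 : ContinuousAt (fun z : V × X × X => fderiv ℝ (S.τ z.2.2 z.2.1) 0) (0, p) :=
        cont_fderiv (a := fun z : V × X × X => z.2.2) (b := fun z => z.2.1) (c := fun _ => 0)
          (by fun_prop) (by fun_prop) continuousAt_const (Sys.zero_dom he)
      have d2 : ContinuousAt (fun z : V × X × X => fderiv ℝ (S.τ z.2.1 z.2.2) z.1) (0, p) :=
        cont_fderiv (a := fun z : V × X × X => z.2.1) (b := fun z => z.2.2) (c := fun z => z.1)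
          (by fun_prop) (by fun_prop) continuousAt_fst (Sys.zero_dom he.symm)
      have c1 : ContinuousAt (fun z : V × X × X => ‖prj S z.2.1 z.2.2 z.1 - S.eS‖) (0, p) :=
        (((d1.mul continuousAt_const).mul d2).sub continuousAt_const).norm
      refine (c1.eventually (gt_mem_nhds ?_)).mono fun z hz _ => hz
      simp only [prj, eS_conj he, sub_self, norm_zero, hε]
    · have c1 : ContinuousAt (fun z : V × X × X => S.pt z.2.2) (0, p) :=
        S.pt_cont.continuousAt.comp (by fun_prop)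
      have c2 : ContinuousAt (fun z : V × X × X => S.c z.2.1 z.1) (0, p) :=
        ContinuousAt.comp (g := fun p : X × V => S.c p.1 p.2) (f := fun z : V × X × X => (z.2.1, z.1))
          (S.c_cont.continuousAt ((isOpen_univ.prod isOpen_ball).mem_nhds
            ⟨mem_univ _, mem_ball_self one_pos⟩)) (by fun_prop)
      refine ((c1.prodMk c2).eventually (isClosed_diagonal.isOpen_compl.mem_nhds ?_)).mono
        fun z hz h => (hz h).elim
      exact fun h => he (h.trans (S.c_zero' _))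
  obtain ⟨r, hr, h2⟩ := Metric.eventually_nhds_iff.1 h1
  refine ⟨min r (1 / 2), by positivity, fun x y q hq h => ?_⟩
  have q1 : ‖q‖ ≤ 1 / 2 := (hq.trans_le (min_le_right _ _)).le
  have q2 : q ∈ ball (0 : V) 1 := mem_ball_zero_iff.2 (by linarith)
  obtain ⟨y', hy, hd⟩ := hD x q q1
  obtain ⟨g, hg⟩ := hc x
  have := h2 (y := q) (by rw [dist_zero_right]; exact hq.trans_le (min_le_left _ _)) (g • x, g • y')
    ⟨hg, mem_cthickening_of_dist_le _ (g • x) _ _ hg (by rwa [dist_smul, dist_comm])⟩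
    (by rw [S.pt_smul, S.c_smul g x q q2, hy])
  rwa [prj, fderiv_smul g (Sys.zero_dom' q2 hy), fderiv_smul g (mem_dom' q2 hy).1, ← prj,
    ← prj_indep q2 h hy] at this

end Vale.Agent.P207Z.IdG
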