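import Vale.Agent.P207Z.Calc
import Vale.Agent.P207Z.Geo.Sp

/-!
# P207 GEO, the central idempotent: local algebra modulo flat terms
-/

set_option linter.all false

open Set Filter Topology Metric
open scoped ContDiff

noncomputable section

namespace Vale.Agent.P207Z.IdG

section Alg

variable {V A : Type} [NormedAddCommGroup V] [NormedSpace ℝ V] [NormedRing A] [NormedAlgebra ℝ A]
  {k : ℕ} {P Q R P' Q' B C D W Y T σ σ' : V → A}

theorem flat_mul_left {f g : V → A} (h : Flat k f 0) (hg : ContinuousAt g 0) :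
    Flat k (fun q => g q * f q) 0 := h.bilin_right (ContinuousLinearMap.mul ℝ A) hg

theorem flat_mul_right {f g : V → A} (h : Flat k f 0) (hg : ContinuousAt g 0) :
    Flat k (fun q => f q * g q) 0 := h.bilin_left (ContinuousLinearMap.mul ℝ A) hg

theorem flat_of_contr {d r : V → A} {c : V → ℝ} {a : ℝ} (hc : ContinuousAt c 0) (h0 : c 0 < a)
    (hr : Flat k r 0) (h : ∀ᶠ q in 𝓝 (0 : V), a * ‖d q‖ ≤ ‖r q‖ + c q * ‖d q‖) : Flat k d 0 := by
  have hp : 0 < (a - c 0) / 2 := by linarith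
  refine hr.of_le ((a - c 0) / 2)⁻¹ ?_
  filter_upwards [h, hc.eventually (gt_mem_nhds (show c 0 < (a + c 0) / 2 by linarith))] with q h1 h2
  rw [le_inv_mul_iff₀ hp]
  nlinarith [norm_nonneg (d q)]

/-- `B` sends the range of `Q` into the range of `P`, to the order `k` -/
def Idl (k : ℕ) (P Q B : V → A) : Prop := Flat k (fun q => (1 - P q) * B q * Q q) 0

theorem cont_cmp (hP : ContinuousAt P 0) : ContinuousAt (fun q => 1 - P q) 0 :=
  continuousAt_const.sub hP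

theorem Idl.congr (h : Idl k P Q B) (e : C =ᶠ[𝓝 0] B) : Idl k P Q C :=
  Flat.congr h (e.mono fun q hq => by simp only [hq])

theorem Idl.add (h : Idl k P Q B) (h' : Idl k P Q C) : Idl k P Q fun q => B q + C q :=
  Flat.congr (Flat.add h h') (Eventually.of_forall fun q => by noncomm_ring)

theorem Idl.sub (h : Idl k P Q B) (h' : Idl k P Q C) : Idl k P Q fun q => B q - C q :=
  Flat.congr (Flat.sub h h') (Eventually.of_forall fun q => by noncomm_ring)

theorem Idl.neg (h : Idl k P Q B) : Idl k P Q fun q => -B q :=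
  Flat.congr (Flat.neg h) (Eventually.of_forall fun q => by noncomm_ring)

theorem Idl.one (hi : ∀ᶠ q in 𝓝 (0 : V), P q * P q = P q) : Idl k P P fun _ => 1 :=
  Flat.congr Flat.zero (hi.mono fun q hq => by
    show (1 - P q) * 1 * P q = 0
    rw [mul_one, sub_mul, one_mul, hq, sub_self])

theorem Idl.mul (h : Idl k P Q B) (h' : Idl k Q R C) (hP : ContinuousAt P 0)
    (hR : ContinuousAt R 0) (hB : ContinuousAt B 0) (hC : ContinuousAt C 0) :
    Idl k P R fun q => B q * C q :=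
  Flat.congr ((flat_mul_right h (hC.mul hR)).add (flat_mul_left h' ((cont_cmp hP).mul hB)))
    (Eventually.of_forall fun q => by simp only [Pi.mul_apply]; noncomm_ring)

theorem Idl.change (h : Idl k P Q B) (h1 : Flat k (fun q => (1 - P' q) * P q) 0)
    (h2 : Flat k (fun q => (1 - Q q) * Q' q) 0) (hP : ContinuousAt P 0) (hP' : ContinuousAt P' 0)
    (hQ' : ContinuousAt Q' 0) (hB : ContinuousAt B 0) : Idl k P' Q' B :=
  Flat.congr (((flat_mul_left (flat_mul_right h hQ') (cont_cmp hP')).add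
    (flat_mul_right h1 (hB.mul hQ'))).add
    (flat_mul_left h2 (((cont_cmp hP').mul (cont_cmp hP)).mul hB)))
    (Eventually.of_forall fun q => by simp only [Pi.mul_apply]; noncomm_ring)

theorem Idl.conj {g g' : V → A} (h : Idl k P Q B) (hg : ContinuousAt g 0) (hg' : ContinuousAt g' 0)
    (e : ∀ᶠ q in 𝓝 (0 : V), g q * g' q = 1 ∧ g' q * g q = 1) :
    Idl k (fun q => g q * P q * g' q) (fun q => g q * Q q * g' q) fun q => g q * B q * g' q := by
  refine Flat.congr (flat_mul_right (flat_mul_left h hg) hg') (e.mono fun q hq => ?_)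
  have a1 : ∀ z, g' q * (g q * z) = z := fun z => by rw [← mul_assoc, hq.2, one_mul]
  simp only [sub_mul, mul_sub, one_mul, mul_assoc, a1]

theorem flat_syl {d : V → A} (hP : ContinuousAt P 0) (hQ : ContinuousAt Q 0)
    (hW : ContinuousAt W 0) (hY : ContinuousAt Y 0)
    (hd : ∀ᶠ q in 𝓝 (0 : V), (1 - P q) * d q = d q ∧ d q * Q q = d q)
    (hs : ‖W 0 - 1‖ * ‖Q 0‖ + ‖1 - P 0‖ * ‖Y 0 - 1‖ < 2)
    (h : Flat k (fun q => d q * W q * Q q + (1 - P q) * Y q * d q) 0) : Flat k d 0 := by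
  refine flat_of_contr (c := fun q => ‖W q - 1‖ * ‖Q q‖ + ‖1 - P q‖ * ‖Y q - 1‖) (by fun_prop) hs h
    (hd.mono fun q hq => ?_)
  have e : (2 : ℝ) • d q = (d q * W q * Q q + (1 - P q) * Y q * d q) -
      (d q * (W q - 1) * Q q + (1 - P q) * (Y q - 1) * d q) := by
    have : (2 : ℝ) • d q = d q * Q q + (1 - P q) * d q := by rw [hq.1, hq.2, two_smul]
    rw [this]
    noncomm_ring
  have n1 : ‖d q * (W q - 1) * Q q‖ ≤ ‖d q‖ * ‖W q - 1‖ * ‖Q q‖ := norm_mul₃_le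
  have n2 : ‖(1 - P q) * (Y q - 1) * d q‖ ≤ ‖1 - P q‖ * ‖Y q - 1‖ * ‖d q‖ := norm_mul₃_le
  have n3 := norm_sub_le (d q * W q * Q q + (1 - P q) * Y q * d q)
    (d q * (W q - 1) * Q q + (1 - P q) * (Y q - 1) * d q)
  have n4 := norm_add_le (d q * (W q - 1) * Q q) ((1 - P q) * (Y q - 1) * d q)
  rw [← e, norm_smul, Real.norm_two] at n3
  nlinarith

theorem ev_d (hi : ∀ᶠ q in 𝓝 (0 : V), P q * P q = P q) (hj : ∀ᶠ q in 𝓝 (0 : V), Q q * Q q = Q q)
    (D : V → A) : ∀ᶠ q in 𝓝 (0 : V), (1 - P q) * ((1 - P q) * D q * Q q) = (1 - P q) * D q * Q q ∧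
      (1 - P q) * D q * Q q * Q q = (1 - P q) * D q * Q q := by
  filter_upwards [hi, hj] with q h1 h2
  refine ⟨?_, by rw [mul_assoc, h2]⟩
  have : (1 - P q) * (1 - P q) = 1 - P q := by
    rw [mul_sub, mul_one, sub_mul, one_mul, h1, sub_self, sub_zero]
  rw [← mul_assoc, ← mul_assoc, this]

theorem Idl.syl (hP : ContinuousAt P 0) (hQ : ContinuousAt Q 0) (hW : ContinuousAt W 0)
    (hY : ContinuousAt Y 0) (hD : ContinuousAt D 0) (hi : ∀ᶠ q in 𝓝 (0 : V), P q * P q = P q)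
    (hj : ∀ᶠ q in 𝓝 (0 : V), Q q * Q q = Q q)
    (hs : ‖W 0 - 1‖ * ‖Q 0‖ + ‖1 - P 0‖ * ‖Y 0 - 1‖ < 2) (h1 : Idl k Q Q W) (h2 : Idl k P P Y)
    (h : Idl k P Q fun q => D q * W q + Y q * D q) : Idl k P Q D :=
  flat_syl hP hQ hW hY (ev_d hi hj D) hs (Flat.congr
    ((Flat.sub h (flat_mul_left h1 ((cont_cmp hP).mul hD))).sub (flat_mul_right h2 (hD.mul hQ)))
    (Eventually.of_forall fun q => by simp only [Pi.mul_apply]; noncomm_ring))

theorem Idl.sqrt (hP : ContinuousAt P 0) (hY : ContinuousAt Y 0)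
    (hi : ∀ᶠ q in 𝓝 (0 : V), P q * P q = P q)
    (hs : ‖Y 0 - 1‖ * ‖P 0‖ + ‖1 - P 0‖ * ‖Y 0 - 1‖ < 2) (h : Idl k P P fun q => Y q * Y q) :
    Idl k P P Y :=
  flat_syl hP hP hY hY (ev_d hi hi Y) hs
    (Flat.congr h (Eventually.of_forall fun q => by noncomm_ring))

theorem Idl.cancel (hP : ContinuousAt P 0) (hQ : ContinuousAt Q 0) (hY : ContinuousAt Y 0)
    (hD : ContinuousAt D 0) (hj : ∀ᶠ q in 𝓝 (0 : V), Q q * Q q = Q q)
    (hs : ‖Y 0 - 1‖ * ‖Q 0‖ < 1) (h1 : Idl k Q Q Y) (h : Idl k P Q fun q => D q * Y q) :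
    Idl k P Q D := by
  refine flat_of_contr (c := fun q => ‖Y q - 1‖ * ‖Q q‖) (by fun_prop) hs
    (Flat.sub h (flat_mul_left h1 ((cont_cmp hP).mul hD))) (hj.mono fun q hq => ?_)
  have e : (1 - P q) * D q * Q q = ((1 - P q) * (D q * Y q) * Q q -
      (1 - P q) * D q * ((1 - Q q) * Y q * Q q)) - (1 - P q) * D q * Q q * (Y q - 1) * Q q := by
    have : (1 - P q) * D q * Q q = (1 - P q) * D q * (Q q * Q q) := by rw [hq]
    refine this.trans ?_
    noncomm_ring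
  have n1 : ‖(1 - P q) * D q * Q q * (Y q - 1) * Q q‖ ≤
      ‖(1 - P q) * D q * Q q‖ * ‖Y q - 1‖ * ‖Q q‖ := norm_mul₃_le
  have n2 := norm_sub_le ((1 - P q) * (D q * Y q) * Q q -
      (1 - P q) * D q * ((1 - Q q) * Y q * Q q)) ((1 - P q) * D q * Q q * (Y q - 1) * Q q)
  rw [← e] at n2
  simp only [Pi.mul_apply]
  nlinarith

/-- the sign of a germ whose modulus is `1` at the centre -/
theorem idl_ref (hP : ContinuousAt P 0) (hQ : ContinuousAt Q 0) (hT : ContinuousAt T 0)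
    (hY : ContinuousAt Y 0) (hσ : ContinuousAt σ 0) (hi : ∀ᶠ q in 𝓝 (0 : V), P q * P q = P q)
    (hj : ∀ᶠ q in 𝓝 (0 : V), Q q * Q q = Q q) (h0 : Y 0 = 1)
    (e : ∀ᶠ q in 𝓝 (0 : V), Y q * Y q = T q * T q ∧ σ q * Y q = T q) (h1 : Idl k P P T)
    (h2 : Idl k Q Q T) : Idl k P P σ ∧ Idl k Q Q σ ∧ ∀ X : V → A, ContinuousAt X 0 →
      (Idl k P Q fun q => X q * T q - T q * X q) → Idl k P Q fun q => X q * σ q - σ q * X q := by
  have y1 : Idl k P P Y := Idl.sqrt hP hY hi (by simp [h0])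
    ((h1.mul h1 hP hP hT hT).congr (e.mono fun q hq => hq.1))
  have y2 : Idl k Q Q Y := Idl.sqrt hQ hY hj (by simp [h0])
    ((h2.mul h2 hQ hQ hT hT).congr (e.mono fun q hq => hq.1))
  have s1 : Idl k P P σ := Idl.cancel hP hP hY hσ hi (by simp [h0]) y1
    (h1.congr (e.mono fun q hq => hq.2))
  refine ⟨s1, Idl.cancel hQ hQ hY hσ hj (by simp [h0]) y2 (h2.congr (e.mono fun q hq => hq.2)),
    fun X hX h => ?_⟩
  have c1 : ContinuousAt (fun q => X q * T q - T q * X q) 0 := by fun_prop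
  have c2 : ContinuousAt (fun q => X q * Y q - Y q * X q) 0 := by fun_prop
  have d1 : Idl k P Q fun q => X q * Y q - Y q * X q := by
    refine Idl.syl hP hQ hY hY c2 hi hj (by simp [h0]) y2 y1
      (((h.mul h2 hP hQ c1 hT).add (h1.mul h hP hQ hT c1)).congr (e.mono fun q hq => ?_))
    have : (X q * Y q - Y q * X q) * Y q + Y q * (X q * Y q - Y q * X q) =
        X q * (Y q * Y q) - Y q * Y q * X q := by noncomm_ring
    simp only [this, hq.1]
    noncomm_ring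
  refine Idl.cancel hP hQ hY (by fun_prop) hj (by simp [h0]) y2
    ((h.sub (s1.mul d1 hP hQ hσ c2)).congr (e.mono fun q hq => ?_))
  simp only [← hq.2]
  noncomm_ring

/-- two signs which are close are equal -/
theorem idl_sign {N δ : ℝ} (hP : ContinuousAt P 0) (hQ : ContinuousAt Q 0) (hT : ContinuousAt T 0)
    (hY : ContinuousAt Y 0) (hσ : ContinuousAt σ 0) (hσ' : ContinuousAt σ' 0)
    (hi : ∀ᶠ q in 𝓝 (0 : V), P q * P q = P q) (hj : ∀ᶠ q in 𝓝 (0 : V), Q q * Q q = Q q)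
    (e : ∀ᶠ q in 𝓝 (0 : V), Y q * Y q = T q * T q ∧ σ' q * Y q = T q)
    (e' : ∀ᶠ q in 𝓝 (0 : V), σ q * σ q = 1) (h1 : Idl k P P T) (h2 : Idl k Q Q T)
    (s1 : Idl k P P σ) (s2 : Idl k Q Q σ) (hc : Idl k P Q fun q => T q * σ q - σ q * T q)
    (n1 : ‖Y 0 - 1‖ ≤ δ) (n2 : ‖σ 0 * T 0 - 1‖ ≤ δ) (p1 : ‖P 0‖ ≤ N) (p2 : ‖1 - P 0‖ ≤ N)
    (q1 : ‖Q 0‖ ≤ N) (q2 : ‖1 - Q 0‖ ≤ N) (hδ : δ * N < 1) : Idl k P Q fun q => σ' q - σ q := by
  have m : ∀ {a b : A}, ‖a‖ ≤ δ → ‖b‖ ≤ N → ‖a‖ * ‖b‖ < 1 := fun ha hb =>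
    (mul_le_mul ha hb (norm_nonneg _) ((norm_nonneg _).trans ha)).trans_lt hδ
  have m2 : ∀ {a b c d : A}, ‖a‖ ≤ δ → ‖b‖ ≤ N → ‖c‖ ≤ N → ‖d‖ ≤ δ → ‖a‖ * ‖b‖ + ‖c‖ * ‖d‖ < 2 :=
    fun ha hb hc hd => by
      have := m ha hb
      have := m hd hc
      linarith
  have y1 : Idl k P P Y := Idl.sqrt hP hY hi (m2 n1 p1 p2 n1)
    ((h1.mul h1 hP hP hT hT).congr (e.mono fun q hq => hq.1))
  have y2 : Idl k Q Q Y := Idl.sqrt hQ hY hj (m2 n1 q1 q2 n1)
    ((h2.mul h2 hQ hQ hT hT).congr (e.mono fun q hq => hq.1))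
  have c1 : ContinuousAt (fun q => T q * σ q - σ q * T q) 0 := by fun_prop
  have c2 : ContinuousAt (fun q => σ q * T q - Y q) 0 := by fun_prop
  have d1 : Idl k P Q fun q => σ q * T q - Y q := by
    refine Idl.syl (W := fun q => σ q * T q) hP hQ (hσ.mul hT) hY c2 hi hj (m2 n2 q1 p2 n1)
      (s2.mul h2 hQ hQ hσ hT) y1
      (((s1.mul hc hP hQ hσ c1).mul h2 hP hQ (hσ.mul c1) hT).congr ?_)
    filter_upwards [e, e'] with q hq hq'
    have a1 : (σ q * T q - Y q) * (σ q * T q) + Y q * (σ q * T q - Y q) =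
        σ q * T q * (σ q * T q) - Y q * Y q := by noncomm_ring
    have a2 : σ q * (T q * σ q - σ q * T q) * T q =
        σ q * T q * (σ q * T q) - σ q * σ q * (T q * T q) := by noncomm_ring
    simp only [a1, a2, hq.1, hq', one_mul]
  refine Idl.cancel hP hQ hY (by fun_prop) hj (m n1 q1) y2 ((s1.mul d1 hP hQ hσ c2).congr ?_)
  filter_upwards [e, e'] with q hq hq'
  rw [sub_mul, hq.2, mul_sub, ← mul_assoc, hq', one_mul]

/-- the modulus and the sign of `2 B - 1` near an idempotent -/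
structure Sgn (e : A) (O : Set A) (Yf σf : A → A) : Prop where
  op : IsOpen O
  mem : e ∈ O
  sY : ContDiffOn ℝ ∞ Yf O
  sσ : ContDiffOn ℝ ∞ σf O
  Y0 : Yf e = 1
  σ0 : σf e = e + e - 1
  sq : ∀ B ∈ O, Yf B * Yf B = (B + B - 1) * (B + B - 1)
  mul : ∀ B ∈ O, σf B * Yf B = B + B - 1
  inv : ∀ B ∈ O, σf B * σf B = 1

theorem exists_sgn [CompleteSpace A] (e : A) (he : e * e = e) :
    ∃ (O : Set A) (Yf σf : A → A), Sgn e O Yf σf := by
  obtain ⟨R, hR1, hR⟩ := Geo.exists_sqrt (A := A)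
  have hTs : ContDiff ℝ ∞ fun B : A => B + B - 1 := by fun_prop
  have hid : (e + e - 1) * (e + e - 1) = 1 := by
    simp only [sub_mul, mul_sub, add_mul, mul_add, he, mul_one, one_mul]
    abel
  have hc : Tendsto (fun B : A => (B + B - 1) * (B + B - 1)) (𝓝 e) (𝓝 1) := by
    have := (hTs.continuous.mul hTs.continuous).continuousAt (x := e)
    rwa [ContinuousAt, Pi.mul_apply, hid] at this
  obtain ⟨O, hO, hOo, hO0⟩ := _root_.eventually_nhds_iff.1 (hc.eventually hR)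
  have hY : ∀ B ∈ O, ContDiffAt ℝ ∞ (fun B => R ((B + B - 1) * (B + B - 1))) B := fun B hB =>
    (hO B hB).1.comp B (hTs.mul hTs).contDiffAt
  refine ⟨O, fun B => R ((B + B - 1) * (B + B - 1)),
    fun B => (B + B - 1) * Ring.inverse (R ((B + B - 1) * (B + B - 1))), hOo, hO0,
    fun B hB => (hY B hB).contDiffWithinAt,
    fun B hB => (hTs.contDiffAt.mul (Geo.contDiffAt_inv (hY B hB) (hO B hB).2.2.1)).contDiffWithinAt,
    by simp only [hid, hR1], by simp only [hid, hR1, Ring.inverse_one, mul_one],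
    fun B hB => (hO B hB).2.1, fun B hB => Ring.inverse_mul_cancel_right _ _ (hO B hB).2.2.1,
    fun B hB => ?_⟩
  obtain ⟨-, h1, h2, -, h3⟩ := hO B hB
  set T := B + B - 1
  set Y := R (T * T)
  have c1 : T * Y = Y * T := by
    have := Geo.comm_sqrt h3 T
    rw [h1, mul_assoc, sub_self, map_zero] at this
    exact sub_eq_zero.1 this
  have c2 : Ring.inverse Y * T = T * Ring.inverse Y := by
    rw [Ring.inverse_mul_eq_iff_eq_mul _ _ _ h2, ← mul_assoc, ← c1,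
      Ring.mul_inverse_cancel_right _ _ h2]
  rw [mul_assoc, ← mul_assoc (Ring.inverse Y), c2, ← mul_assoc, ← mul_assoc, ← h1,
    Ring.mul_inverse_cancel_right _ _ h2, Ring.mul_inverse_cancel _ h2]

end Alg

section Eqn

variable {V F : Type} [NormedAddCommGroup V] [NormedSpace ℝ V] [NormedAddCommGroup F]
  [NormedSpace ℝ F] {k : ℕ} {P Q σ P' Q' σ' g g' : V → F →L[ℝ] F}

/-- the equations `v ∈ Z`, `(1 - σ) v ∈ F` -/
def rr (P Q σ : F →L[ℝ] F) : F →L[ℝ] F × F := (1 - Q).prod ((1 - P) * (1 - σ) * Q)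

theorem dom_rr (hP : ContinuousAt P 0) (hP' : ContinuousAt P' 0) (hQ : ContinuousAt Q 0)
    (hQ' : ContinuousAt Q' 0) (hσ' : ContinuousAt σ' 0)
    (h1 : Flat k (fun q => (1 - P' q) * P q) 0) (h2 : Flat k (fun q => (1 - Q' q) * Q q) 0)
    (h : Idl k P Q fun q => σ' q - σ q) :
    Dom k (fun q => rr (P' q) (Q' q) (σ' q)) fun q => rr (P q) (Q q) (σ q) := by
  have b1 : Dom k (fun q => 1 - Q q) fun q => rr (P q) (Q q) (σ q) :=
    Dom.of_le 1 (Eventually.of_forall fun q v => by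
      rw [one_mul]
      exact norm_fst_le (rr (P q) (Q q) (σ q) v))
  have b2 : Dom k (fun q => (1 - P q) * (1 - σ q) * Q q) fun q => rr (P q) (Q q) (σ q) :=
    Dom.of_le 1 (Eventually.of_forall fun q v => by
      rw [one_mul]
      exact norm_snd_le (rr (P q) (Q q) (σ q) v))
  refine Dom.prod ((Dom.of_flat ?_).trans (b1.left (cont_cmp hQ')))
    ((Dom.of_flat ?_).trans ((b1.left (U := fun q => (1 - P' q) * (1 - σ' q) * Q' q)
      (by fun_prop)).add (b2.left (cont_cmp hP'))))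
  · refine Flat.congr h2 (Eventually.of_forall fun q => ?_)
    show 1 - Q' q - (1 - Q' q) * (1 - Q q) = (1 - Q' q) * Q q
    noncomm_ring
  · refine Flat.congr (((flat_mul_right h1 (g := fun q => (1 - σ' q) * Q q) (by fun_prop)).sub
      (flat_mul_left h2 (g := fun q => (1 - P' q) * (1 - σ' q)) (by fun_prop))).sub
      (flat_mul_left h (cont_cmp hP'))) (Eventually.of_forall fun q => ?_)
    show (1 - P' q) * (1 - σ' q) * Q' q - ((1 - P' q) * (1 - σ' q) * Q' q * (1 - Q q) +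
      (1 - P' q) * ((1 - P q) * (1 - σ q) * Q q)) = (1 - P' q) * P q * ((1 - σ' q) * Q q) -
      (1 - P' q) * (1 - σ' q) * ((1 - Q' q) * Q q) - (1 - P' q) * ((1 - P q) * (σ' q - σ q) * Q q)
    noncomm_ring

theorem rr_conj {P Q σ g g' : F →L[ℝ] F} (h' : g' * g = 1) :
    rr (g * P * g') (g * Q * g') (g * σ * g') ∘L g = g.prodMap g ∘L rr P Q σ := by
  have a1 : ∀ z, g' * (g * z) = z := fun z => by rw [← mul_assoc, h', one_mul]
  have e1 : (1 - g * Q * g') * g = g * (1 - Q) := by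
    simp only [sub_mul, mul_sub, one_mul, mul_one, mul_assoc, h']
  have e2 : (1 - g * P * g') * (1 - g * σ * g') * (g * Q * g') * g =
      g * ((1 - P) * (1 - σ) * Q) := by
    simp only [sub_mul, mul_sub, one_mul, mul_one, mul_assoc, h', a1]
  ext v
  · exact DFunLike.congr_fun e1 v
  · exact DFunLike.congr_fun e2 v

theorem eqv_rr_conj (hg : ContinuousAt g 0) (hg' : ContinuousAt g' 0)
    (e : ∀ᶠ q in 𝓝 (0 : V), g q * g' q = 1 ∧ g' q * g q = 1) :
    Eqv k (fun q => rr (g q * P q * g' q) (g q * Q q * g' q) (g q * σ q * g' q) ∘L g q)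
      fun q => rr (P q) (Q q) (σ q) := by
  have c : ∀ {g : V → F →L[ℝ] F}, ContinuousAt g 0 →
      ContinuousAt (fun q => (g q).prodMap (g q)) 0 := fun {g} hg =>
    (ContinuousLinearMap.prodMapL ℝ F F F F).continuous.continuousAt.comp (hg.prodMk hg)
  refine ⟨((Dom.refl _).left (c hg)).congr (e.mono fun q hq => rr_conj hq.2) EventuallyEq.rfl,
    ((Dom.refl _).left (c hg')).congr (e.mono fun q hq => ?_) EventuallyEq.rfl⟩
  beta_reduce
  rw [rr_conj hq.2]
  ext v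
  · exact (DFunLike.congr_fun hq.2 _).symm
  · exact (DFunLike.congr_fun hq.2 _).symm

/-- equivalent equations of two fields of projections in two trivialisations -/
theorem flat_of_eqv {J : V → F →L[ℝ] F} (h : Eqv k (fun q => (1 - P q) ∘L g q) (cmp J))
    (hP : ContinuousAt P 0) (hJ : ContinuousAt J 0) (hg : ContinuousAt g 0)
    (hg' : ContinuousAt g' 0) (e : ∀ᶠ q in 𝓝 (0 : V), g q * g' q = 1 ∧ g' q * g q = 1)
    (hi : ∀ᶠ q in 𝓝 (0 : V), P q * P q = P q) (hj : ∀ᶠ q in 𝓝 (0 : V), J q * J q = J q) :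
    Flat k (fun q => (1 - P q) * (g q * J q * g' q)) 0 ∧
      Flat k (fun q => (1 - g q * J q * g' q) * P q) 0 := by
  constructor
  · refine Flat.congr (h.1.flat (P := fun q => J q * g' q) le_rfl (hJ.mul hg')
      (Flat.congr Flat.zero (hj.mono fun q hq => ?_))) (Eventually.of_forall fun q => ?_)
    · show (1 - J q) * (J q * g' q) = 0
      rw [← mul_assoc, sub_mul, one_mul, hq, sub_self, zero_mul]
    · show (1 - P q) * (g q * J q * g' q) = (1 - P q) * g q * (J q * g' q)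
      noncomm_ring
  · refine Flat.congr (flat_mul_left (h.2.flat (P := fun q => g' q * P q) le_rfl (hg'.mul hP)
      (Flat.congr Flat.zero ?_)) hg) (e.mono fun q hq => ?_)
    · filter_upwards [e, hi] with q hq hq'
      show (1 - P q) * g q * (g' q * P q) = 0
      rw [mul_assoc, ← mul_assoc (g q), hq.1, one_mul, sub_mul, one_mul, hq', sub_self]
    · show (1 - g q * J q * g' q) * P q = g q * ((1 - J q) * (g' q * P q))
      rw [sub_mul, sub_mul, one_mul, one_mul, mul_sub, ← mul_assoc (g q) (g' q), hq.1, one_mul]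
      noncomm_ring

/-- **The local statement.** `P, Q, B` live in the trivialisation of the extension, `J, K, C` in
the trivialisation of the reference; `g` goes from the second to the first. -/
theorem local_eqv {e : F →L[ℝ] F} {O : Set (F →L[ℝ] F)} {Yf σf : (F →L[ℝ] F) → F →L[ℝ] F}
    (hs : Sgn e O Yf σf) {J K B C : V → F →L[ℝ] F} {N δ : ℝ} (hP : ContinuousAt P 0)
    (hQ : ContinuousAt Q 0) (hJ : ContinuousAt J 0) (hK : ContinuousAt K 0)
    (hB : ContinuousAt B 0) (hC : ContinuousAt C 0) (hg : ContinuousAt g 0)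
    (hg' : ContinuousAt g' 0) (eg : ∀ᶠ q in 𝓝 (0 : V), g q * g' q = 1 ∧ g' q * g q = 1)
    (iP : ∀ᶠ q in 𝓝 (0 : V), P q * P q = P q) (iQ : ∀ᶠ q in 𝓝 (0 : V), Q q * Q q = Q q)
    (iJ : ∀ᶠ q in 𝓝 (0 : V), J q * J q = J q) (iK : ∀ᶠ q in 𝓝 (0 : V), K q * K q = K q)
    (ePJ : Eqv k (fun q => (1 - P q) ∘L g q) (cmp J))
    (eQK : Eqv k (fun q => (1 - Q q) ∘L g q) (cmp K))
    (b1 : Idl k J J fun q => g' q * B q * g q) (b2 : Idl k K K fun q => g' q * B q * g q)
    (c1 : Idl k J J C) (c2 : Idl k K K C)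
    (hc : Idl k J K fun q => g' q * B q * g q * C q - C q * (g' q * B q * g q))
    (C0 : C 0 = e) (B0 : B 0 ∈ O) (n1 : ‖Yf (B 0) - 1‖ ≤ δ)
    (n2 : ‖g 0 * (e + e - 1) * g' 0 * (B 0 + B 0 - 1) - 1‖ ≤ δ) (p1 : ‖P 0‖ ≤ N)
    (p2 : ‖1 - P 0‖ ≤ N) (q1 : ‖Q 0‖ ≤ N) (q2 : ‖1 - Q 0‖ ≤ N) (hδ : δ * N < 1) :
    Eqv k (fun q => rr (P q) (Q q) (σf (B q)) ∘L g q) fun q => rr (J q) (K q) (σf (C q)) := by
  have CO : C 0 ∈ O := C0 ▸ hs.mem
  have cY : ∀ {D : V → F →L[ℝ] F}, ContinuousAt D 0 → D 0 ∈ O →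
      ContinuousAt (fun q => Yf (D q)) 0 := fun hD h =>
    ContinuousAt.comp (hs.sY.continuousOn.continuousAt (hs.op.mem_nhds h)) hD
  have cσ : ∀ {D : V → F →L[ℝ] F}, ContinuousAt D 0 → D 0 ∈ O →
      ContinuousAt (fun q => σf (D q)) 0 := fun hD h =>
    ContinuousAt.comp (hs.sσ.continuousOn.continuousAt (hs.op.mem_nhds h)) hD
  have eB : ∀ᶠ q in 𝓝 (0 : V), B q ∈ O := hB.eventually (hs.op.mem_nhds B0)
  have eC : ∀ᶠ q in 𝓝 (0 : V), C q ∈ O := hC.eventually (hs.op.mem_nhds CO)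
  have σB := cσ hB B0
  have σC := cσ hC CO
  -- the reference
  obtain ⟨r1, r2, r3⟩ := idl_ref (T := fun q => C q + C q - 1) hJ hK (by fun_prop) (cY hC CO) σC iJ iK
    (by simp only [C0, hs.Y0]) (eC.mono fun q hq => ⟨hs.sq _ hq, hs.mul _ hq⟩)
    ((c1.add c1).sub (Idl.one iJ)) ((c2.add c2).sub (Idl.one iK))
  have r4 := r3 (fun q => g' q * B q * g q) (by fun_prop)
    ((hc.add hc).congr (Eventually.of_forall fun q => by noncomm_ring))
  -- change of the trivialisation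
  obtain ⟨f1, f2⟩ := flat_of_eqv ePJ hP hJ hg hg' eg iP iJ
  obtain ⟨f3, f4⟩ := flat_of_eqv eQK hQ hK hg hg' eg iQ iK
  have cJ : ContinuousAt (fun q => g q * J q * g' q) 0 := by fun_prop
  have cK : ContinuousAt (fun q => g q * K q * g' q) 0 := by fun_prop
  have cs : ContinuousAt (fun q => g q * σf (C q) * g' q) 0 := (hg.mul σC).mul hg'
  have eBB : ∀ᶠ q in 𝓝 (0 : V), B q = g q * (g' q * B q * g q) * g' q := eg.mono fun q hq => by
    rw [mul_assoc, mul_assoc, hq.1, mul_one, ← mul_assoc, hq.1, one_mul]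
  have t1 : Idl k P P B := ((b1.conj hg hg' eg).congr eBB).change f1 f2 cJ hP hP hB
  have t2 : Idl k Q Q B := ((b2.conj hg hg' eg).congr eBB).change f3 f4 cK hQ hQ hB
  have s1 := (r1.conj hg hg' eg).change f1 f2 cJ hP hP cs
  have s2 := (r2.conj hg hg' eg).change f3 f4 cK hQ hQ cs
  have s3 : Idl k P Q fun q => B q * (g q * σf (C q) * g' q) - g q * σf (C q) * g' q * B q := by
    refine ((r4.conj hg hg' eg).congr (eg.mono fun q hq => ?_)).change f1 f4 cJ hP hQ (by fun_prop)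
    have a1 : ∀ z, g q * (g' q * z) = z := fun z => by rw [← mul_assoc, hq.1, one_mul]
    simp only [sub_mul, mul_sub, mul_assoc, a1, hq.1, mul_one]
  have key : Idl k P Q fun q => σf (B q) - g q * σf (C q) * g' q := by
    refine idl_sign (T := fun q => B q + B q - 1) hP hQ (by fun_prop) (cY hB B0) cs σB iP iQ
      (eB.mono fun q hq => ⟨hs.sq _ hq, hs.mul _ hq⟩) ?_ ((t1.add t1).sub (Idl.one iP))
      ((t2.add t2).sub (Idl.one iQ)) s1 s2
      ((s3.add s3).congr (Eventually.of_forall fun q => by noncomm_ring)) n1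
      (by simpa only [C0, hs.σ0] using n2) p1 p2 q1 q2 hδ
    filter_upwards [eg, eC] with q hq hq'
    have a1 : ∀ z, g' q * (g q * z) = z := fun z => by rw [← mul_assoc, hq.2, one_mul]
    simp only [mul_assoc, a1]
    rw [← mul_assoc (σf (C q)), hs.inv _ hq', one_mul, hq.1]
  have E1 : Eqv k (fun q => rr (P q) (Q q) (σf (B q)))
      fun q => rr (g q * J q * g' q) (g q * K q * g' q) (g q * σf (C q) * g' q) :=
    ⟨dom_rr cJ hP cK hQ σB f1 f3 (key.change f2 f3 hP cJ cK (σB.sub cs)),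
      dom_rr hP cJ hQ cK cs f2 f4 (key.neg.congr (Eventually.of_forall fun q => by simp))⟩
  exact (E1.pull (τ := fun q => q) differentiableAt_id rfl hg).trans (eqv_rr_conj hg hg' eg)

end Eqn

end Vale.Agent.P207Z.IdG
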